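import Vale.Agent.P251.Z.Acyc
import Vale.Agent.P093.N.PLocRight
import Vale.Agent.P093.N2.ChiDual

/-!
# P241, block NIL: `v_i` is nilpotent on objects which are acyclic for the Koszul objects

`P` is a commutative ring object with elements `v 0 = p, v 1, …` satisfying the invariance
relations; `Y` is a compact dualizable object. If `Y` is acyclic for the external Koszul objects of
heights `1 ≤ i < h` and `m p^L = 0` on `Y` with `m` prime to `p`, then a power of every `v i`,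
`i < h`, times an integer prime to `p`, is zero on `P ⊗ Y`.
-/

open CategoryTheory MonoidalCategory Limits MonObj Pretriangulated

set_option linter.unusedSectionVars false

universe v u

namespace Vale.Agent.P241.H796

open Vale.Agent.P251.T Vale.Agent.P251.S Vale.Agent.P251.Z Vale.Agent.P093.PLoc
  Vale.Agent.P093.N2

variable {T : Type u} [Category.{v} T] [Preadditive T] [HasZeroObject T]
    [HasShift T ℤ] [∀ n : ℤ, (shiftFunctor T n).Additive] [Pretriangulated T] [IsTriangulated T]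
    [MonoidalCategory T] [SymmetricCategory T] [TensorTriangulated T] [MonoidalClosed T]
    [HasCoproducts.{0} T] [HasProducts.{0} T] [StableCat T]

/-- If `Y` has a dual and `Y ⊗ (Y ⊗ Q) = 0` then `Y ⊗ Q = 0`. -/
theorem isZero_of_dz {Y Q : T} (hY : Dz Y) (h : IsZero (Y ⊗ (Y ⊗ Q))) : IsZero (Y ⊗ Q) := by
  obtain ⟨L, ⟨_⟩⟩ := hY
  have h1 : IsZero ((Y ⊗ (L ⊗ Y)) ⊗ Q) := by
    have h2 : IsZero (L ⊗ (Y ⊗ (Y ⊗ Q))) := (tensorLeft L).map_isZero h
    refine h2.of_iso ?_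
    exact α_ Y (L ⊗ Y) Q ≪≫ whiskerLeftIso Y (α_ L Y Q) ≪≫ (α_ Y L (Y ⊗ Q)).symm ≪≫
      whiskerRightIso (β_ Y L) (Y ⊗ Q) ≪≫ α_ L Y (Y ⊗ Q)
  rw [IsZero.iff_id_eq_zero]
  have h3 : 𝟙 Y = ((ρ_ Y).inv ≫ Y ◁ (η_ L Y)) ≫ ((α_ Y L Y).inv ≫ (ε_ L Y) ▷ Y ≫ (λ_ Y).hom) := by
    have := ExactPairing.coevaluation_evaluation L Y
    rw [Category.assoc, reassoc_of% this]
    simp
  rw [← id_whiskerRight, h3, comp_whiskerRight,
    h1.eq_of_tgt (((ρ_ Y).inv ≫ Y ◁ (η_ L Y)) ▷ Q) 0, zero_comp]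

/-- a power of `a`, times an integer prime to `p`, is zero on `P ⊗ Y` -/
def NilOn (p : ℕ) {P : T} [MonObj P] (Y : T) (a : 𝟙_ T ⟶ P) : Prop :=
  ∃ (m : ℤ) (L : ℕ), m ∈ cop p ∧ m • (((ModStr.free P Y).sm a) ^ L : End (P ⊗ Y)) = 0

theorem endR_pow (A B : T) (x : End A) (L : ℕ) : (endR A B x) ^ L = endR A B (x ^ L) :=
  (map_pow (endR A B) x L).symm

/-- on the `p`-localization the powers are nilpotent -/
theorem NilOn.isNilpotent {p : ℕ} (hp : p ≠ 1) {P : T} [MonObj P] [IsCommMonObj P] {Y : T} {a : 𝟙_ T ⟶ P}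
    (h : NilOn p Y a) : IsNilpotent (((ModStr.free P Y).tensorRight (Sp T p)).sm a) := by
  obtain ⟨m, L, hm, h0⟩ := h
  refine ⟨L, ?_⟩
  rw [sm_tensorRight, endR_pow]
  refine IsPLocal.eq_zero (isPLocal_tensor_Sp hp (P ⊗ Y)) hm ?_
  change m • ((((ModStr.free P Y).sm a) ^ L : End (P ⊗ Y)) ▷ Sp T p) = 0
  rw [← Vale.Agent.P093.PLoc.whiskerRight_zsmul]
  erw [h0]
  exact MonoidalPreadditive.zero_whiskerRight

/-- powers of a scalar act linearly -/
theorem isLinear_itr {P : T} [MonObj P] [IsCommMonObj P] {N : T} (M : ModStr P N)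
    (a : 𝟙_ T ⟶ P) (k : ℕ) : M.IsLinear M (itr (M.smul a) k) := by
  induction k with
  | zero =>
    change M.act ≫ 𝟙 N = P ◁ (𝟙 N) ≫ M.act
    simp
  | succ k ih =>
    have h1 := M.smul_linear a
    unfold ModStr.IsLinear at ih h1 ⊢
    rw [itr_succ, MonoidalCategory.whiskerLeft_comp, Category.assoc, ← h1, ← Category.assoc, ih,
      Category.assoc]

/-- nilpotence on the free module from the unit -/
theorem nilOn_of_unit {p : ℕ} {P : T} [MonObj P] [IsCommMonObj P] {Y : T} {a : 𝟙_ T ⟶ P} {m : ℤ}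
    {L : ℕ} (hm : m ∈ cop p)
    (h : m • (ModStr.unitMap P Y ≫ itr ((ModStr.free P Y).smul a) L) = 0) :
    NilOn p Y a := by
  refine ⟨m, L, hm, ?_⟩
  have h1 := (ModStr.free P Y).ext_unitMap _ (isLinear_itr (ModStr.free P Y) a L)
  have h2 : (ModStr.free P Y).ext (m • (ModStr.unitMap P Y ≫ itr ((ModStr.free P Y).smul a) L)) =
      m • (ModStr.free P Y).ext (ModStr.unitMap P Y ≫ itr ((ModStr.free P Y).smul a) L) :=
    map_zsmul ((ModStr.free P Y).extHom Y) m _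
  rw [h, h1, ModStr.ext_zero] at h2
  have h3 : itr ((ModStr.free P Y).smul a) L = (((ModStr.free P Y).sm a) ^ L : End (P ⊗ Y)) :=
    itr_eq_pow (T := T) ((ModStr.free P Y).sm a) L
  rw [← h3]
  exact h2.symm

/-- `unit, then a power of the scalar of the factor `P`, then the action` is the power of the
scalar -/
theorem itr_extR {P : T} [MonObj P] [IsCommMonObj P] {N : T} (M : ModStr P N) {W : T} (f : W ⟶ N)
    (a : 𝟙_ T ⟶ P) (k : ℕ) :
    itr (W ◁ (ModStr.self P).smul a) k ≫ M.extR f = M.extR (f ≫ itr (M.smul a) k) := by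
  induction k generalizing f with
  | zero => simp
  | succ k ih =>
    rw [itr_succ, Category.assoc, ModStr.self_smul_extR, ih, Category.assoc, ← itr_succ']

theorem unit_extR {P : T} [MonObj P] {N : T} (M : ModStr P N) {W : T} (f : W ⟶ N) :
    (ρ_ W).inv ≫ W ◁ η[P] ≫ M.extR f = f := by
  unfold ModStr.extR
  rw [BraidedCategory.braiding_naturality_right_assoc]
  have h := M.unitMap_ext f
  unfold ModStr.unitMap at h
  simpa using h

/-- the powers of `x ▷ X` -/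
theorem itr_whiskerRight {A X : T} (x : A ⟶ A) (k : ℕ) : itr (x ▷ X) k = itr x k ▷ X := by
  induction k with
  | zero => simp
  | succ k ih => rw [itr_succ, itr_succ, comp_whiskerRight, ih]

/-- **The inductive step.** -/
theorem nilOn_step {p : ℕ} (hp : p ≠ 1) {P : T} [MonObj P] [IsCommMonObj P] {h : ℕ}
    (hh : 1 ≤ h) {v : ℕ → (𝟙_ T ⟶ P)} (hv : InvData P p h v) (Z : KosData P p h v) {Y : T}
    (hY : IsCpt Y) (hD : Dz Y) (hn : ∀ k < h, NilOn p Y (v k)) (hK : Acyclic Z.K Y) :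
    NilOn p Y (v h) := by
  let M0 := ModStr.free P Y
  let M1 := M0.tensorRight (Sp T p)
  have hb1 : ∀ k < h, IsNilpotent (M1.sm (v k)) := fun k hk => (hn k hk).isNilpotent hp
  obtain ⟨U⟩ := exists_tel (X := fun _ : ℕ => P) (fun _ => (ModStr.self P).smul (v h))
  have hi := isIso_a2 M1 v h (hv.inv h hh le_rfl) hb1 U
  have h1 : Acyclic (((P ⊗ Y) ⊗ Sp T p) ⊗ U.obj) Y :=
    acyclic_of_acyclic_K Z (M1.tensorRight U.obj) hv hh
      (fun k hk => isNilpotent_tensorRight M1 _ _ (hb1 k hk)) hi hK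
  have h2 : IsZero (((P ⊗ Y) ⊗ Sp T p) ⊗ U.obj) := by
    let Q : T := (P ⊗ Sp T p) ⊗ U.obj
    have e : ((P ⊗ Y) ⊗ Sp T p) ⊗ U.obj ≅ Y ⊗ Q :=
      whiskerRightIso (whiskerRightIso (β_ P Y) (Sp T p) ≪≫ α_ Y P (Sp T p)) U.obj ≪≫
        α_ Y (P ⊗ Sp T p) U.obj
    have h3 : IsZero (Y ⊗ (Y ⊗ Q)) := by
      refine IsZero.of_iso h1 (β_ Y (Y ⊗ Q) ≪≫ whiskerRightIso e.symm Y)
    exact (isZero_of_dz hD h3).of_iso e
  -- the unit becomes zero at a finite stage of the telescope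
  let N1 : T := (P ⊗ Y) ⊗ Sp T p
  let g0 : Y ⟶ N1 := ModStr.unitMap P Y ≫ etaR p (P ⊗ Y)
  let g1 : Y ⟶ N1 ⊗ P := g0 ≫ (ρ_ N1).inv ≫ N1 ◁ η[P]
  obtain ⟨k, hk⟩ := (U.tensL N1).exists_eq_zero hY (n := 0) g1 (h2.eq_of_tgt _ _)
  rw [trT_const] at hk
  have h4 : g0 ≫ itr (M1.smul (v h)) k = 0 := by
    have h5 := congrArg (fun z => z ≫ M1.extR (𝟙 N1)) hk
    simp only [zero_comp, Category.assoc] at h5
    rw [itr_extR, Category.id_comp] at h5
    have h6 := unit_extR M1 (itr (M1.smul (v h)) k)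
    simp only [g1, Category.assoc] at h5
    rw [h6] at h5
    exact h5
  have h7 : (ModStr.unitMap P Y ≫ itr (M0.smul (v h)) k) ≫ etaR p (P ⊗ Y) = 0 := by
    rw [Category.assoc, etaR_naturality, ← itr_whiskerRight]
    have h8 : M1.smul (v h) = M0.smul (v h) ▷ Sp T p := M0.tensorRight_smul _ _
    rw [h8] at h4
    simpa [g0] using h4
  obtain ⟨q, hq, h9⟩ := exists_zero_right hY _ h7
  exact nilOn_of_unit (m := (q : ℤ)) (mem_cop.2 (by simpa using hq)) h9

/-- **Block NIL.** -/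
theorem nilOn {p : ℕ} (hp : p ≠ 1) {P : T} [MonObj P] [IsCommMonObj P] {v : ℕ → (𝟙_ T ⟶ P)}
    {h : ℕ} (hv : ∀ i, 1 ≤ i → i < h → InvData P p i v) {Y : T}
    (hY : IsCpt Y) (hD : Dz Y) (h0 : 0 < h → NilOn p Y (v 0))
    (hK : ∀ i, 1 ≤ i → i < h → ∀ Z : KosData P p i v, Acyclic Z.K Y) :
    ∀ i < h, NilOn p Y (v i) := by
  intro i
  induction i using Nat.strong_induction_on with
  | _ i ih =>
    intro hi
    rcases Nat.eq_zero_or_pos i with rfl | hpos
    · exact h0 hi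
    · obtain ⟨Z⟩ := exists_kosData P (p : ℤ) i v
      exact nilOn_step hp hpos (hv i hpos hi) Z hY hD (fun k hk => ih k hk (hk.trans hi))
        (hK i hpos hi Z)

/-- nilpotence of `p` from `m p^L = 0` on `Y` -/
theorem nilOn_zero {p : ℕ} {P : T} [MonObj P] [IsCommMonObj P] {Y : T} {m : ℤ} {L : ℕ}
    (hm : m ∈ cop p) (h : (m * (p : ℤ) ^ L) • 𝟙 Y = 0) : NilOn p Y ((p : ℤ) • η[P]) := by
  refine nilOn_of_unit (m := m) (L := L) hm ?_
  have h1 : ∀ k, itr ((ModStr.free P Y).smul ((p : ℤ) • η[P])) k = (p : ℤ) ^ k • 𝟙 (P ⊗ Y) := by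
    have h2 : (ModStr.free P Y).smul ((p : ℤ) • η[P]) = (p : ℤ) • 𝟙 (P ⊗ Y) := by
      have := map_zsmul (ModStr.free P Y).smulHom (p : ℤ) η[P]
      change (ModStr.free P Y).smul ((p : ℤ) • η[P]) = (p : ℤ) • (ModStr.free P Y).smul η[P] at this
      rw [this, ModStr.smul_one]
    intro k
    induction k with
    | zero => simp
    | succ k ih => rw [itr_succ, ih, h2, Preadditive.zsmul_comp, Preadditive.comp_zsmul,
        Category.id_comp, smul_smul, pow_succ]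
  rw [h1, Preadditive.comp_zsmul, Category.comp_id, smul_smul, ← Category.id_comp
    (ModStr.unitMap P Y), ← Preadditive.zsmul_comp, h, zero_comp]

end Vale.Agent.P241.H796
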