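import Vale.Agent.P241.H796.Nil
import Vale.Agent.P251.M.MUInv

/-!
# P241, block NIL: the graded form

For `P = R ⊗ PS` and a homogeneous element `a : S n ⟶ R`, `NilOn p Y (sharp a)` says that a power
`b : S k ⟶ R` of `a`, times an integer prime to `p`, satisfies `m • (b ▷ Y) = 0`.
-/

open CategoryTheory MonoidalCategory Limits MonObj Pretriangulated

set_option linter.unusedSectionVars false

universe v u

namespace Vale.Agent.P241.H796

open Vale.Agent.P251.T Vale.Agent.P251.S Vale.Agent.P251.M Vale.Agent.P093.PLoc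

section general

variable {T : Type u} [Category.{v} T] [Preadditive T] [HasZeroObject T]
    [HasShift T ℤ] [∀ n : ℤ, (shiftFunctor T n).Additive] [Pretriangulated T] [IsTriangulated T]
    [MonoidalCategory T] [SymmetricCategory T] [TensorTriangulated T] [MonoidalClosed T]
    [HasCoproducts.{0} T] [HasProducts.{0} T] [StableCat T]

theorem unitMap_smul {P : T} [MonObj P] (Y : T) (c : 𝟙_ T ⟶ P) :
    ModStr.unitMap P Y ≫ (ModStr.free P Y).smul c = (λ_ Y).inv ≫ c ▷ Y := by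
  have h1 : (ModStr.free P Y).smul c = (ModStr.self P).smul c ▷ Y :=
    (ModStr.self P).tensorRight_smul Y c
  have h2 : η[P] ≫ (ModStr.self P).smul c = c := by
    rw [← scMul_eq_smul, scMul_one]
  unfold ModStr.unitMap
  rw [h1, Category.assoc, ← comp_whiskerRight, h2]

/-- `NilOn` from scalars -/
theorem NilOn.exists_whisker {p : ℕ} {P : T} [MonObj P] [IsCommMonObj P] {Y : T} {a : 𝟙_ T ⟶ P}
    (h : NilOn p Y a) : ∃ (m : ℤ) (L : ℕ), m ∈ cop p ∧
      m • (((Sc.of a) ^ L).hom ▷ Y : 𝟙_ T ⊗ Y ⟶ P ⊗ Y) = 0 := by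
  obtain ⟨m, L, hm, h0⟩ := h
  refine ⟨m, L, hm, ?_⟩
  have h1 : (((ModStr.free P Y).sm a) ^ L : End (P ⊗ Y)) =
      (ModStr.free P Y).smul ((Sc.of a) ^ L).hom :=
    (map_pow (ModStr.free P Y).smr (Sc.of a) L).symm
  have h2 : m • (ModStr.unitMap P Y ≫ (ModStr.free P Y).smul ((Sc.of a) ^ L).hom) = 0 := by
    have h3 := congrArg (fun z : P ⊗ Y ⟶ P ⊗ Y => ModStr.unitMap P Y ≫ z) (h1 ▸ h0)
    rw [← Preadditive.comp_zsmul]
    exact h3.trans comp_zero
  rw [unitMap_smul, ← Preadditive.comp_zsmul] at h2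
  rw [← cancel_epi (λ_ Y).inv, comp_zero]
  exact h2

theorem exists_pow_of {E : EvenSpheres T} {R : T} [MonObj R] {n : ℤ} (a : E.S n ⟶ R) (L : ℕ) :
    ∃ b : E.S (L * n) ⟶ R, HRing.of E R (L * n) b = (HRing.of E R n a) ^ L := by
  induction L with
  | zero =>
    refine ⟨(E.castIso _ 0 (by simp)).hom ≫ E.zero.inv ≫ η[R], ?_⟩
    rw [of_cast, pow_zero]
    exact of_one
  | succ L ih =>
    obtain ⟨b, hb⟩ := ih
    refine ⟨EvenSpheres.gmul (by push_cast; ring) b a, ?_⟩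
    rw [← of_mul_of, hb, pow_succ]

/-- **The graded form of `NilOn`.** -/
theorem NilOn.graded {E : EvenSpheres T} {p : ℕ} {R : T} [MonObj R] [IsCommMonObj R] {Y : T}
    {n : ℤ} {a : E.S n ⟶ R} (h : NilOn p Y (sharp a)) :
    ∃ (m : ℤ) (L : ℕ) (b : E.S (L * n) ⟶ R), m ∈ cop p ∧
      HRing.of E R (L * n) b = (HRing.of E R n a) ^ L ∧ m • (b ▷ Y) = 0 := by
  obtain ⟨m, L, hm, h0⟩ := h.exists_whisker
  obtain ⟨b, hb⟩ := exists_pow_of a L
  refine ⟨m, L, b, hm, hb, ?_⟩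
  have h1 : (Sc.of (sharp a) ^ L : Sc (R ⊗ E.PS)) = Sc.of (sharp b) := by
    have h2 := congrArg (sharpHom R) hb
    rw [map_pow, sharpHom_of, sharpHom_of] at h2
    exact h2.symm
  rw [h1] at h0
  have h3 : m • ((sharp b ≫ R ◁ E.pr (-(L * n : ℤ))) ▷ Y) = 0 := by
    rw [comp_whiskerRight, ← Preadditive.zsmul_comp]
    exact (congrArg (fun z => z ≫ (R ◁ E.pr (-(L * n : ℤ))) ▷ Y) h0).trans zero_comp
  rw [E.sharp_pr, comp_whiskerRight, ← Preadditive.comp_zsmul] at h3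
  have h4 : m • ((b ▷ E.S (-(L * n : ℤ))) ▷ Y) = 0 := by
    rw [← cancel_epi ((E.unitIso (L * n : ℤ)).hom ▷ Y), comp_zero]
    exact h3
  refine whiskerRight_inj (E.S (-(L * n : ℤ))) ?_
  rw [Vale.Agent.P093.PLoc.whiskerRight_zsmul, MonoidalPreadditive.zero_whiskerRight]
  have h5 : m • ((b ▷ Y) ▷ E.S (-(L * n : ℤ))) =
      (α_ _ _ _).hom ≫ _ ◁ (β_ _ _).hom ≫ (α_ _ _ _).inv ≫
        (m • ((b ▷ E.S (-(L * n : ℤ))) ▷ Y)) ≫
        (α_ _ _ _).hom ≫ _ ◁ (β_ _ _).hom ≫ (α_ _ _ _).inv := by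
    rw [Preadditive.zsmul_comp, Preadditive.comp_zsmul, Preadditive.comp_zsmul,
      Preadditive.comp_zsmul]
    congr 1
    rw [associator_naturality_left_assoc, Iso.inv_hom_id_assoc, whisker_exchange_assoc,
      ← MonoidalCategory.whiskerLeft_comp_assoc, SymmetricCategory.symmetry,
      MonoidalCategory.whiskerLeft_id, Category.id_comp, ← associator_naturality_left_assoc,
      Iso.hom_inv_id, Category.comp_id]
  rw [h5, h4]
  simp

end general

section MU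

open Vale.Agent.P251.I Vale.Agent.P251.F Vale.Agent.P093.N2

variable {T : Type u} [Category.{v} T] [Preadditive T] [HasZeroObject T]
    [HasShift T ℤ] [∀ n : ℤ, (shiftFunctor T n).Additive] [Pretriangulated T] [IsTriangulated T]
    [MonoidalCategory T] [SymmetricCategory T] [TensorTriangulated T] [MonoidalClosed T]
    [HasCoproducts.{0} T] [HasProducts.{0} T] [StableCat T] (D : MUData T)

/-- a power of `v_i ∈ π_* MU`, times an integer prime to `p`, is zero on `MU ⊗ Y` -/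
def NilMU (p : ℕ) (Y : T) (i : ℕ) : Prop :=
  ∃ (m : ℤ) (L : ℕ) (b : (stdEven T).S (L * ((p ^ i : ℤ) - 1)) ⟶ D.R), m ∈ cop p ∧
    HRing.of (stdEven T) D.R (L * ((p ^ i : ℤ) - 1)) b = vv p i D.law ^ L ∧ m • (b ▷ Y) = 0

variable {D}

theorem NilMU.of_nilOn {p : ℕ} {Y : T} {i : ℕ} (h : NilOn p Y (D.vs p i)) : NilMU D p Y i := by
  obtain ⟨m, L, b, hm, hb, h0⟩ := NilOn.graded h
  exact ⟨m, L, b, hm, by rw [hb, D.vel_spec], h0⟩

variable (D)

/-- an integer is a power of `p` times an integer prime to `p` -/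
theorem exists_cop_pow (p : ℕ) [hp : Fact p.Prime] {n : ℤ} (hn : n ≠ 0) :
    ∃ (m : ℤ) (L : ℕ), m ∈ cop p ∧ n = m * (p : ℤ) ^ L := by
  obtain ⟨L, m, hm, h⟩ := Nat.exists_eq_pow_mul_and_not_dvd (Int.natAbs_ne_zero.2 hn) p
    hp.out.ne_one
  rcases Int.natAbs_eq n with h1 | h1
  · refine ⟨m, L, ?_, ?_⟩
    · rw [mem_cop_iff_not_dvd hp.out]
      exact_mod_cast hm
    · rw [h1, h]
      push_cast
      ring
  · refine ⟨-m, L, ?_, ?_⟩
    · rw [mem_cop_iff_not_dvd hp.out, dvd_neg]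
      exact_mod_cast hm
    · rw [h1, h]
      push_cast
      ring

/-- **Block NIL over `MU`.** If `Y` is compact, dualizable, torsion (if `h > 0`) and acyclic for the
Koszul objects of heights `1 ≤ i < h`, then `v_i` is nilpotent on `MU ⊗ Y` up to integers prime to
`p`, for all `i < h`. -/
theorem nilMU {p : ℕ} [hp : Fact p.Prime] {h : ℕ} {Y : T} (hY : Vale.Agent.P251.S.IsCpt Y) (hD : Dz Y)
    (h0 : 0 < h → ∃ n : ℤ, n ≠ 0 ∧ n • 𝟙 Y = 0)
    (hK : ∀ i, 1 ≤ i → i < h → ∀ Z : KosData D.P (p : ℤ) i (D.vs p), Acyclic Z.K Y) :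
    ∀ i < h, NilMU D p Y i := by
  intro i hi
  refine NilMU.of_nilOn (nilOn hp.out.ne_one (fun i _ _ => D.invData p i) hY hD ?_ hK i hi)
  intro hpos
  obtain ⟨n, hn, hn0⟩ := h0 hpos
  obtain ⟨m, L, hm, rfl⟩ := exists_cop_pow p hn
  rw [(D.invData p 0).v0]
  exact nilOn_zero hm hn0

end MU

end Vale.Agent.P241.H796
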