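import Vale.Agent.P241.H796.Main
import Vale.Agent.P241.H795.KStmt
import Vale.Agent.P241.H882.KMapB

/-!
# P241, block NIL, closed

`nilStmt S p X : R.NilStmt S p X`, for every prime `p` and every model `X` of `MU`.

Inputs: `H795.nonempty_KA` (Morava `K`-theories of positive height are monoids under `MU`),
`KP.kos_acyclic` (comparison with the Koszul objects), `nilStmt_of_kos`.
-/

open CategoryTheory MonoidalCategory Limits MonObj Pretriangulated

set_option linter.unusedSectionVars false

namespace Vale.Agent.P241.H796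

open Vale.Agent.P251 Vale.Agent.P251.I Vale.Agent.P251.F
open Vale.Agent.P241.St (RingA IsMoravaK)

variable {T : St.SHCat} {S : St.Susp T}

/-- `K i`-acyclic objects are acyclic for the Koszul objects of height `i ≥ 1`. -/
theorem kosOf (X : Final.Ctx S) {p : ℕ} [Fact p.Prime] (K : ℕ → RingA T)
    (hK : ∀ i, IsMoravaK S p i (K i)) : KosOf X.D p K := by
  intro i hi Z W hW
  have hi0 : i ≠ 0 := by omega
  obtain ⟨A⟩ := H795.nonempty_KA X.muUniv hi0 (hK i)
  obtain ⟨C, a, δ, hC⟩ := distinguished_cocone_triangle ((p : ℤ) • 𝟙 (𝟙_ T.C))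
  exact KP.kos_acyclic X.muUniv X.muAll hC A.u hi0 (fun l f => A.odd l f)
    (fun m hm f => A.sparse m hm f) A.char A.ne A.gen A.vv_lt A.vv_unit Z hW

/-- **Block NIL**, unconditional. -/
theorem nilStmt (X : Final.Ctx S) (p : ℕ) [Fact p.Prime] : R.NilStmt S p X :=
  nilStmt_of_kos X fun K hK => kosOf X K hK

end Vale.Agent.P241.H796
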