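import Vale.Agent.P241.H796.Graded
import Vale.Agent.P241.H388.RatNil
import Vale.Agent.P241.Final.Ctx
import Vale.Agent.P241.St.Defs
import Vale.Agent.P241.R.TSide
import Vale.Agent.P251.St.ToChrom
import Vale.Agent.P251.M.LimTheory
import Vale.Agent.P251.M.CofTri

/-!
# P241, block NIL: the final form

* `isCpt_susp`, `dz_susp` : suspension spectra of finite cell spaces are compact and dualizable.
* `KosOf D p K` : `K i`-acyclic objects are acyclic for the Koszul objects of height `i`, `1 ≤ i`.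
* `nil` : if `K j ⊗ Y = 0` for all `j < h` then `v_i` is nilpotent on `MU ⊗ Y`, up to integers prime
  to `p`, for all `i < h`.
-/

open CategoryTheory MonoidalCategory Limits MonObj Pretriangulated

set_option linter.unusedSectionVars false

universe v u

namespace Vale.Agent.P241.H796

open Vale.Agent.P251 Vale.Agent.P251.I Vale.Agent.P251.F Vale.Agent.P093.N2 Vale.Agent.P093.PLoc
open Vale.Agent.P241.St (RingA IsMoravaK)

section susp

variable {T : St.SHCat} (S : St.Susp T)

theorem isCpt_susp {X : St.Space} (hX : St.FC X) : Vale.Agent.P251.S.IsCpt (S.obj X) := by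
  have h := M.isCpt_space S.toSpaceFunctor (M.cofTriangles S.toSpaceFunctor) (St.fc_toLC hX)
  exact (M.isCpt_iff _).1 h

theorem dz_susp {X : St.Space} (hX : St.FC X) : Dz (S.obj X) :=
  Dz.space S.toSpaceFunctor ⟨St.toLC X, St.fc_toLC hX⟩

end susp

variable {T : St.SHCat} {S : St.Susp T}

/-- `K i`-acyclic objects are acyclic for the Koszul objects of height `i`. -/
def KosOf (D : MUData T.C) (p : ℕ) (K : ℕ → RingA T) : Prop :=
  ∀ i, 1 ≤ i → ∀ (Z : P251.S.KosData D.P (p : ℤ) i (D.vs p)) (W : T.C),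
    P251.S.Acyclic (K i).obj W → P251.S.Acyclic Z.K W

/-- **Block NIL.** -/
theorem nil_of_kos (D : MUData T.C) {p : ℕ} [hp : Fact p.Prime] {K : ℕ → RingA T}
    (hK : ∀ i, IsMoravaK S p i (K i)) (hkos : KosOf D p K) {Y : T.C}
    (hY : Vale.Agent.P251.S.IsCpt Y) (hD : Dz Y) {h : ℕ}
    (hac : ∀ j < h, St.Acyclic (K j).obj Y) : ∀ i < h, NilMU D p Y i := by
  refine nilMU D hY hD ?_ ?_
  · intro hpos
    have h0 : St.IsRationalA (K 0) := by simpa [IsMoravaK] using hK 0
    have h1 : IsZero ((K 0).obj ⊗ Y) := (St.acyclic_iff _ _).1 (hac 0 hpos)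
    exact H388.exists_zsmul_eq_zero_of_dual S.toSpaceFunctor
      (fun k hk f => h0.conc k f hk) h0.ne (fun m hm => h0.div m hm) h0.gen hY hD h1
  · intro i hi hih Z
    exact hkos i hi Z Y ((St.acyclic_iff _ _).1 (hac i hih))

/-- The Prop `NilStmt` of `R/TSide.lean`, from the comparison of the acyclic objects. -/
theorem nilStmt_of_kos {p : ℕ} [hp : Fact p.Prime] (X : Final.Ctx S)
    (hkos : ∀ K : ℕ → RingA T, (∀ i, IsMoravaK S p i (K i)) → KosOf X.D p K) :
    R.NilStmt S p X := by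
  intro K hK Y hY h hac i hi
  obtain ⟨m, L, b, hm, hb, h0⟩ :=
    nil_of_kos X.D hK (hkos K hK) (isCpt_susp S hY) (dz_susp S hY) hac i hi
  refine ⟨_, m.natAbs • b, ⟨m.natAbs, L, ?_, ?_⟩, ?_⟩
  · have := (mem_cop_iff_not_dvd hp.out).1 hm
    rwa [← Int.dvd_natAbs, Int.natCast_dvd_natCast] at this
  · rw [← hb]
    have h2 : M.HRing.of (M.stdEven T.C) X.D.R (L * ((p ^ i : ℤ) - 1)) (m.natAbs • b) =
        m.natAbs • M.HRing.of (M.stdEven T.C) X.D.R (L * ((p ^ i : ℤ) - 1)) b :=
      map_nsmul (DirectSum.of ((M.stdEven T.C).Gr X.D.R) (L * ((p ^ i : ℤ) - 1))) m.natAbs b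
    exact h2.trans (nsmul_eq_mul _ _)
  · have h1 : (m.natAbs • b) ▷ S.obj Y = m.natAbs • (b ▷ S.obj Y) :=
      map_nsmul (tensorRight (S.obj Y)).mapAddHom m.natAbs b
    rw [h1]
    rcases Int.natAbs_eq m with h2 | h2
    · rw [h2, natCast_zsmul] at h0
      exact h0
    · rw [h2, neg_smul, natCast_zsmul, neg_eq_zero] at h0
      exact h0

end Vale.Agent.P241.H796
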